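import Vale.Agent.P196.Full.Tiles.Tower

/-!
# P196: descendants along the sides of a supertile

The children in the first column depend only on the left colour, those in the first row only on
the bottom colour, the first child on nothing; so do their descendants.
-/

namespace Vale.Agent.P196.Full.Tiles

attribute [local irreducible] K lvl

variable {F : (Sg → Bool) → Bool} {M : ℕ}

private theorem fillV_col0 (hM : K + 2 ≤ M) (T T' : Tile) (y : ℕ) :
    fillV F M T 0 y = fillV F M T' 0 y := by
  funext h
  cases h <;> simp [fillV, show ¬ M ≤ K by omega, show ¬ M + K ≤ 1 by omega, show ¬ 0 = M by omega]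

private theorem fillH_row0 (hM : K + 2 ≤ M) (T T' : Tile) (x : ℕ) :
    fillH F M T x 0 = fillH F M T' x 0 := by
  funext h
  cases h <;> simp [fillH, show ¬ M ≤ K by omega, show ¬ M + K ≤ 1 by omega]

/-- A child in the first column. -/
theorem child_col0 (hM : K + 2 ≤ M) {T T' : Tile} (e : T.l = T'.l) (j : ℕ) :
    child F M T 0 j = child F M T' 0 j := by
  have hs : ∀ b, shown T 0 b = shown T' 0 b := fun b => by simp [shown, Tile.sideBit, e]
  have hH : ∀ x, x ≤ 1 → fillH F M T x j = fillH F M T' x j := fun x hx => by
    funext h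
    cases h <;> simp [fillH, hs, e, show x + 1 ≤ M + K by omega, show x ≤ M by omega,
      show ¬ M < x by omega, show ¬ M < x + K by omega]
  simp only [child, Tile.mk.injEq, Col.mk.injEq, true_and]
  exact ⟨hH 0 (by omega), hH 1 le_rfl, fillV_col0 hM T T' j, fillV_col0 hM T T' (j + 1)⟩

/-- A child in the first row. -/
theorem child_row0 (hM : K + 2 ≤ M) {T T' : Tile} (e : T.d = T'.d) (i : ℕ) :
    child F M T i 0 = child F M T' i 0 := by
  have hs : ∀ b, shown T 2 b = shown T' 2 b := fun b => by simp [shown, Tile.sideBit, e]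
  have hV : ∀ y, y ≤ 1 → fillV F M T i y = fillV F M T' i y := fun y hy => by
    funext h
    cases h
    case Mk =>
      by_cases hi : M + K ≤ i + 1
      · simp [fillV, e, show y ≤ i by omega]
      · simp [fillV, hi]
    all_goals simp [fillV, hs, e, show y + 1 ≤ M + K by omega, show ¬ M < y + K by omega]
  simp only [child, Tile.mk.injEq, Col.mk.injEq, true_and]
  exact ⟨fillH_row0 hM T T' i, fillH_row0 hM T T' (i + 1), hV 0 (by omega), hV 1 le_rfl⟩

/-- The first child is constant. -/
theorem child_zero (hM : K + 2 ≤ M) (T T' : Tile) : child F M T 0 0 = child F M T' 0 0 := by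
  simp only [child, Tile.mk.injEq, Col.mk.injEq, true_and]
  exact ⟨fillH_row0 hM T T' 0, fillH_row0 hM T T' 1, fillV_col0 hM T T' 0, fillV_col0 hM T T' 1⟩

theorem side_pos : ∀ b t, 0 < side b t
  | _, 0 => Nat.one_pos
  | b, t + 1 => Nat.mul_pos (two_mul_lvl_pos b) (side_pos (b + 1) t)

theorem side_succ : ∀ b t, side b (t + 1) = side b t * (2 * lvl (b + t))
  | b, 0 => by rw [side, side, side, add_zero, mul_one, one_mul]
  | b, t + 1 => by
      rw [side, side_succ (b + 1) t, side, Nat.add_right_comm b 1 t, add_assoc b t 1]
      ring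

theorem side_zero_eq_width : ∀ t, side 0 t = width t
  | 0 => rfl
  | t + 1 => by rw [side_succ, side_zero_eq_width t, width, Nat.zero_add]

/-- Descendants through the children at the top. -/
theorem desc_split : ∀ b t (P : Tile) (i j : ℕ), i < side b (t + 1) → j < side b (t + 1) →
    desc b (t + 1) P i j = desc b t (child forb (lvl (b + t)) P (i / side b t) (j / side b t))
      (i % side b t) (j % side b t)
  | b, 0, P, i, j, hi, hj => by
      rw [side, side, mul_one] at hi hj
      simp [desc, side, Nat.mod_eq_of_lt hi, Nat.mod_eq_of_lt hj]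
  | b, t + 1, P, i, j, hi, hj => by
      have hn := two_mul_lvl_pos b
      rw [side] at hi hj
      have e : ∀ x, x % (2 * lvl b * side (b + 1) t) / (2 * lvl b) =
          x / (2 * lvl b) % side (b + 1) t := fun x => Nat.mod_mul_right_div_self x _ _
      have e' : ∀ x, x % (2 * lvl b * side (b + 1) t) % (2 * lvl b) = x % (2 * lvl b) :=
        fun x => Nat.mod_mod_of_dvd x (Dvd.intro _ rfl)
      rw [desc]
      beta_reduce
      rw [desc_split (b + 1) t P _ _ (Nat.div_lt_of_lt_mul hi) (Nat.div_lt_of_lt_mul hj)]
      rw [desc]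
      beta_reduce
      rw [side, e, e, e', e', Nat.div_div_eq_div_mul, Nat.div_div_eq_div_mul,
        Nat.add_right_comm b 1 t, add_assoc b t 1]

variable {s : ℕ} {T T' : Tile} {i j : ℕ}

private theorem K_two_le_lvl (s : ℕ) : K + 2 ≤ lvl s := by
  unfold lvl M0
  have := six_le_two_mul_lvl 0
  have : 1 ≤ K := one_le_K
  omega

theorem desc_top (T : Tile) (hi : i < width (s + 1)) (hj : j < width (s + 1)) :
    desc 0 (s + 1) T i j = desc 0 s (child forb (lvl s) T (i / width s) (j / width s))
      (i % width s) (j % width s) := by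
  rw [← side_zero_eq_width] at hi hj
  rw [desc_split 0 s T i j hi hj, side_zero_eq_width, Nat.zero_add]

theorem width_le_succ (s : ℕ) : width s ≤ width (s + 1) :=
  Nat.le_mul_of_pos_right _ (two_mul_lvl_pos s)

/-- Descendants in the first column of children. -/
theorem desc_congr_l (e : T.l = T'.l) (hi : i < width s) (hj : j < width (s + 1)) :
    desc 0 (s + 1) T i j = desc 0 (s + 1) T' i j := by
  have := hi.trans_le (width_le_succ s)
  rw [desc_top T this hj, desc_top T' this hj, Nat.div_eq_of_lt hi,
    child_col0 (K_two_le_lvl s) e]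

/-- Descendants in the first row of children. -/
theorem desc_congr_d (e : T.d = T'.d) (hi : i < width (s + 1)) (hj : j < width s) :
    desc 0 (s + 1) T i j = desc 0 (s + 1) T' i j := by
  have := hj.trans_le (width_le_succ s)
  rw [desc_top T hi this, desc_top T' hi this, Nat.div_eq_of_lt hj,
    child_row0 (K_two_le_lvl s) e]

/-- Descendants in the first child. -/
theorem desc_congr_zero (T T' : Tile) (hi : i < width s) (hj : j < width s) :
    desc 0 (s + 1) T i j = desc 0 (s + 1) T' i j := by
  have h1 := hi.trans_le (width_le_succ s)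
  have h2 := hj.trans_le (width_le_succ s)
  rw [desc_top T h1 h2, desc_top T' h1 h2, Nat.div_eq_of_lt hi, Nat.div_eq_of_lt hj,
    child_zero (K_two_le_lvl s) T T']

end Vale.Agent.P196.Full.Tiles
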