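import Vale.Agent.P196.Full.Lift.ShiftPart
import Vale.Agent.P196.Full.Lift.Level

/-!
# P196: blocks of good partitions and gluing of partitions of partitions
-/

namespace Vale.Agent.P196.Full.Lift

open Calculus Calculus.Part
open scoped commutatorElement

variable {n : ℕ} {Q : Type} [Group Q] {A : Amp Q n} {u : Alt n →* Q} {I J : Type*}

open Classical in
theorem block_apply (P : Part u I) (p : I → Prop) (a : Alt n) :
    block P p a = P.hom fun i => if p i then a else 1 := by
  rw [block_eq, atom_apply, merge_apply]
  refine congrArg P.hom (funext fun i => ?_)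
  by_cases h : p i <;> simp [h]

open Classical in
theorem block_merge (P : Part u I) (f : I → J) (p : J → Prop) :
    block (P.merge f) p = block P (p ∘ f) :=
  MonoidHom.ext fun a => by rw [block_apply, block_apply, merge_apply]; rfl

theorem block_congr_hom {P P' : Part u I} (h : P.hom = P'.hom) (p : I → Prop) :
    block P p = block P' p :=
  MonoidHom.ext fun a => by rw [block_apply, block_apply, h]

open Classical in
theorem block_true (P : Part u I) : block P (fun _ => True) = u :=
  MonoidHom.ext fun a => by rw [block_apply, ← P.hom_const]; simp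

open Classical in
theorem block_false (P : Part u I) : block P (fun _ => False) = 1 :=
  MonoidHom.ext fun a => by
    rw [block_apply, MonoidHom.one_apply]
    simp only [if_false]
    exact map_one P.hom

open Classical in
/-- Blocks differing only at trivial atoms are equal. -/
theorem block_congr [Finite I] [DecidableEq I] (P : Part u I) {p q : I → Prop}
    (h : ∀ i, P.atom i ≠ 1 → (p i ↔ q i)) : block P p = block P q := by
  refine MonoidHom.ext fun a => ?_
  rw [block_apply, block_apply, ← mul_inv_eq_one, ← map_inv, ← map_mul]
  refine Subgroup.pi_mem_of_mulSingle_mem (H := P.hom.ker) _ fun i => ?_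
  rw [MonoidHom.mem_ker, ← atom_apply]
  by_cases hi : P.atom i = 1
  · rw [hi, MonoidHom.one_apply]
  · simp [h i hi]

open Classical in
/-- Blocks meet in the block of the conjunction. -/
theorem block_meet (P : Part u I) (p q : I → Prop) :
    Meet (block P p) (block P q) (block P fun i => p i ∧ q i) := fun a b => by
  rw [block_apply, block_apply, block_apply, ← map_commutatorElement]
  refine congrArg P.hom (funext fun i => ?_)
  by_cases h1 : p i <;> by_cases h2 : q i <;> simp [h1, h2, commutatorElement_def]

/-- Disjoint blocks commute. -/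
theorem block_comm (P : Part u I) {p q : I → Prop} (h : ∀ i, p i → ¬ q i) :
    Comm (block P p) (block P q) := by
  have := block_meet P p q
  rw [show (fun i => p i ∧ q i) = fun _ => False from
    funext fun i => eq_false fun hi => h i hi.1 hi.2, block_false] at this
  exact this.comm_of_one

/-- An atom lies in the blocks containing it. -/
theorem meet_atom_block [DecidableEq I] (P : Part u I) {i : I} {p : I → Prop} (hi : p i) :
    Meet (P.atom i) (block P p) (P.atom i) := by
  have := block_meet P (fun j => j = i) p
  rwa [show (fun j => j = i ∧ p j) = fun j => j = i from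
    funext fun j => propext ⟨And.left, fun e => ⟨e, e ▸ hi⟩⟩, ← atom_eq_block] at this

/-- An atom of a finer partition lies in its image. -/
theorem meet_atom_refines [DecidableEq I] [DecidableEq J] {P : Part u I} {R : Part u J}
    {f : I → J} (h : Refines P f R) (i : I) : Meet (P.atom i) (R.atom (f i)) (P.atom i) := by
  rw [atom_eq_block R, ← block_congr_hom h, block_merge]
  exact meet_atom_block P rfl

/-- A coefficient commuting with itself is trivial. -/
theorem eq_one_of_comm_self (hn : 5 ≤ n) {e : Alt n →* Q} (h : Comm e e) : e = 1 :=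
  hom_ext_commutator hn fun a b => by
    rw [map_commutatorElement, MonoidHom.one_apply, commutatorElement_eq_one_iff_commute]
    exact h a b

/-- What lies in commuting coefficients commutes. -/
theorem comm_of_le {e f r r' : Alt n →* Q} (he : A.Good e) (hf : A.Good f) (hr : A.Good r)
    (hr' : A.Good r') (h₁ : Meet e r e) (h₂ : Meet f r' f) (h : Comm r r') : Comm e f :=
  Meet.orth A.closed.colours h₁ h₂ h (he.sep hf) (he.sep hr') (hr.sep hf)

open Classical in
/-- Partitions of the atoms of a partition make one partition. -/
theorem exists_glue_parts [Finite I] [Finite J] [DecidableEq I] [DecidableEq J] {P : Part u I}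
    (hP : GoodPart A P) (R : ∀ i, Part (P.atom i) J) (hR : ∀ i, GoodPart A (R i)) :
    ∃ T : Part u (I × J), (∀ i j, T.atom (i, j) = (R i).atom j) ∧ GoodPart A T := by
  have := Fintype.ofFinite I
  have := Fintype.ofFinite J
  have hcomm : Pairwise fun z w : I × J =>
      ∀ a b, Commute ((R z.1).atom z.2 a) ((R w.1).atom w.2 b) := by
    rintro ⟨i, j⟩ ⟨i', j'⟩ hne
    by_cases hi : i = i'
    · subst hi
      exact (R i).comm_atom fun e => hne (by simp only [Prod.ext_iff]; exact ⟨trivial, e⟩)
    · exact comm_of_le ((hR i).atom j) ((hR i').atom j') (hP.atom i) (hP.atom i')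
        ((R i).meet_atom_unit j) ((R i').meet_atom_unit j') (P.comm_atom hi)
  let Θ : (I × J → Alt n) →* Q := MonoidHom.noncommPiCoprod (fun z => (R z.1).atom z.2) hcomm
  have hΘ : ∀ z a, Θ (Pi.mulSingle z a) = (R z.1).atom z.2 a := fun z a =>
    MonoidHom.noncommPiCoprod_mulSingle _ (hcomm := hcomm) z a
  have h1 : ∀ i, Θ.comp (MonoidHom.mk' (fun w : J → Alt n => fun z : I × J =>
      if z.1 = i then w z.2 else 1) fun w w' => funext fun z => by
        by_cases hz : z.1 = i <;> simp [hz]) = (R i).hom := fun i => by
    refine MonoidHom.pi_ext fun j a => ?_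
    show Θ _ = (R i).hom _
    rw [← atom_apply, ← hΘ (i, j)]
    refine congrArg Θ (funext fun z => ?_)
    obtain ⟨i', j'⟩ := z
    by_cases hz : i' = i
    · subst hz; by_cases hj : j' = j <;> simp [hj]
    · simp [hz]
  have h2 : Θ.comp (MonoidHom.mk' (fun y : I → Alt n => fun z : I × J => y z.1) fun _ _ => rfl)
      = P.hom := by
    refine MonoidHom.pi_ext fun i a => ?_
    show Θ _ = P.hom _
    rw [← atom_apply, ← (R i).hom_const a, ← h1 i]
    refine congrArg Θ (funext fun z => ?_)
    by_cases hz : z.1 = i <;> simp [hz]
  refine ⟨⟨Θ, fun a => (DFunLike.congr_fun h2 fun _ => a).trans (P.hom_const a)⟩,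
    fun i j => MonoidHom.ext fun a => hΘ (i, j) a, goodPart_of_atoms fun z => ?_⟩
  have : (⟨Θ, fun a => (DFunLike.congr_fun h2 fun _ => a).trans (P.hom_const a)⟩ :
      Part u (I × J)).atom z = (R z.1).atom z.2 := MonoidHom.ext fun a => hΘ z a
  exact this ▸ (hR z.1).atom z.2

end Vale.Agent.P196.Full.Lift
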