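import Vale.Agent.P196.Full.Lift.Window.Parts
import Vale.Agent.P196.Full.Lift.Window.Desc

/-!
# P196: the windows of sites are jointly compatible

The supertile whose corner is nearest below a window decides all tiles of the window, through the
colours it shares with its three neighbours; so one partition refines the tiles at all sites of
the window.
-/

namespace Vale.Agent.P196.Full.Lift

open Calculus Calculus.Part Tiles
open scoped Classical

variable {n : ℕ} {Q : Type} [Group Q] {A : Amp Q n} {P : Part A.u (LTile 0)}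

instance : Nonempty (LTile 0) := ⟨⟨seed (lvl 0), Generated.base 0⟩⟩

/-- The partition by the tile at the site `v`. -/
noncomputable def site (hP : GoodPart A P) (v : Lat) : Part A.u (LTile 0) :=
  (exists_pshift hP (Amp.Shift.unit A (-v))).choose

theorem site_shift (hP : GoodPart A P) (v : Lat) : PShift A (-v) P (site hP v) :=
  (exists_pshift hP (Amp.Shift.unit A (-v))).choose_spec.1

theorem site_good (hP : GoodPart A P) (v : Lat) : GoodPart A (site hP v) :=
  (exists_pshift hP (Amp.Shift.unit A (-v))).choose_spec.2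

theorem site_between (hP : GoodPart A P) {v w d : Lat} (e : v - w = d) :
    PShift A d (site hP v) (site hP w) := fun t => by
  have := ((site_shift hP v).symm t).add (site_shift hP w t)
  rwa [neg_neg, ← sub_eq_add_neg, e] at this

/-- A partition by patterns: on each site it is the partition by the tile there. -/
def IsWin (hP : GoodPart A P) {ι : Type} (pos : ι → Lat) (J : Part A.u (ι → LTile 0)) : Prop :=
  ∀ i, Refines J (fun p => p i) (site hP (pos i))

theorem IsWin.restrict {hP : GoodPart A P} {ι κ : Type} {pos : ι → Lat}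
    {J : Part A.u (ι → LTile 0)} (h : IsWin hP pos J) (g : κ → ι) :
    IsWin hP (pos ∘ g) (J.merge fun p => p ∘ g) := fun k =>
  MonoidHom.ext fun y => DFunLike.congr_fun (h (g k)) y

/-- A partition by patterns is unique. -/
theorem IsWin.unique {hP : GoodPart A P} {ι : Type} [Finite ι] {pos : ι → Lat}
    {J J' : Part A.u (ι → LTile 0)} (h : IsWin hP pos J) (hg : GoodPart A J)
    (h' : IsWin hP pos J') (hg' : GoodPart A J') : J.hom = J'.hom := by
  refine eq_of_orth A.closed.colours fun p q hpq => ?_
  obtain ⟨i, hi⟩ := Function.ne_iff.1 hpq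
  exact comm_of_le (hg.atom p) (hg'.atom q) ((site_good hP _).atom _) ((site_good hP _).atom _)
    (meet_atom_refines (h i) p) (meet_atom_refines (h' i) q)
    ((site hP (pos i)).comm_atom (Ne.symm hi))

section Anchor

variable {s : ℕ} (L : Level A P s)

/-- Blocks moved onto one another pass orthogonality on. -/
theorem orth_block (hP : GoodPart A P) {d : Lat} {c : Fin (width s) × Fin (width s)}
    {p q : LTile s → Prop} {t : LTile 0}
    (hpq : A.Shift (d - (((c.1 : ℕ) : ℤ), ((c.2 : ℕ) : ℤ))) (block L.tiles p) (block L.tiles q))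
    (hq : ∀ T', q T' → desc 0 s T'.1 c.1 c.2 ≠ t.1) {T : LTile s} (hT : p T) {f : Alt n →* Q}
    (hf : A.Shift d (L.tiles.atom T) f) : Comm f (P.atom t) := by
  set d' : Lat := (((c.1 : ℕ) : ℤ), ((c.2 : ℕ) : ℤ))
  obtain ⟨u₁, hu₁, -⟩ := A.exists_shift d L.tiles_good.unit
  obtain ⟨R, hR, hRg⟩ := exists_pshift L.tiles_good hu₁
  obtain ⟨u₂, hu₂, -⟩ := A.exists_shift d' L.tiles_good.unit
  obtain ⟨R', hR', hR'g⟩ := exists_pshift L.tiles_good hu₂
  have h1 := hpq.add (hR'.shift_block q)
  rw [sub_add_cancel] at h1
  have eG : block R p = block R' q := (hR.shift_block p).unique h1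
  have ef : f = R.atom T := hf.unique (hR T)
  have hG : Comm (block R' q) (P.atom t) := by
    intro a b
    rw [block_apply]
    refine (commute_pi R'.hom _ _ fun i => ?_).symm
    by_cases hi : q i
    · rw [if_pos hi, ← atom_apply]
      have := L.site c i t _ (hR' i)
      rw [if_neg (hq i hi)] at this
      exact (this.comm_of_one a b).symm
    · simp [hi]
  have h2 := meet_atom_block R hT
  rw [← ef, eG] at h2
  exact comm_of_le (ef ▸ hRg.atom T) (hP.atom t) (hR'g q) (hP.atom t) h2
    (Meet.self _) hG

/-- The corners of neighbouring supertiles are translates of one another. -/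
theorem units_shift_h : A.Shift ((width s : ℤ), 0) L.unit L.unit := by
  let S := ↥(Set.range (fun T : LTile s => T.1.r) ∪ Set.range fun T : LTile s => T.1.l)
  have : Finite S := ((Set.finite_range _).union (Set.finite_range _)).to_subtype
  let gr : LTile s → S := fun T => ⟨T.1.r, Or.inl ⟨T, rfl⟩⟩
  let gl : LTile s → S := fun T => ⟨T.1.l, Or.inr ⟨T, rfl⟩⟩
  refine PShift.unit (P := L.tiles.merge gr) (P' := L.tiles.merge gl) fun γ => ?_
  rw [atom_eq_block, atom_eq_block, block_merge, block_merge]
  convert L.match_h γ.1 using 2 <;> funext T <;> exact propext Subtype.ext_iff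

theorem units_shift_v : A.Shift (0, (width s : ℤ)) L.unit L.unit := by
  let S := ↥(Set.range (fun T : LTile s => T.1.u) ∪ Set.range fun T : LTile s => T.1.d)
  have : Finite S := ((Set.finite_range _).union (Set.finite_range _)).to_subtype
  let gu : LTile s → S := fun T => ⟨T.1.u, Or.inl ⟨T, rfl⟩⟩
  let gd : LTile s → S := fun T => ⟨T.1.d, Or.inr ⟨T, rfl⟩⟩
  refine PShift.unit (P := L.tiles.merge gu) (P' := L.tiles.merge gd) fun γ => ?_
  rw [atom_eq_block, atom_eq_block, block_merge, block_merge]
  convert L.match_v γ.1 using 2 <;> funext T <;> exact propext Subtype.ext_iff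

end Anchor

/-- A tile of level `0`, if it is one. -/
noncomputable def pick (u : Tile) : LTile 0 :=
  if h : OK 0 u then ⟨u, h⟩ else Classical.arbitrary _

theorem eq_pick {t : LTile 0} {u : Tile} (e : t.1 = u) : t = pick u := by
  subst e
  unfold pick
  rw [dif_pos t.2]

/-- The supertiles of a high level decide the tiles at the sites right above and right of the
origin. -/
theorem exists_win_pos (hP : GoodPart A P) {s : ℕ} (L : Level A P (s + 1)) {ι : Type} [Finite ι]
    (pos : ι → ℕ × ℕ) (hpos : ∀ i, (pos i).1 ≤ width s ∧ (pos i).2 ≤ width s) :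
    ∃ J, GoodPart A J ∧ IsWin hP (fun i => (((pos i).1 : ℤ), ((pos i).2 : ℤ))) J := by
  have hws := width_le_succ s
  set W := width (s + 1) with hW
  choose R hR hRg using fun c => exists_pshift L.tiles_good (L.cells_shift c)
  obtain ⟨T₀, hT₀, hT₀g⟩ := exists_glue_parts L.cells_good R hRg
  -- the tile of the supertile `T` seen from position `x`, which may lie in a neighbour
  let tgt : LTile (s + 1) → ℕ → ℕ → Tile := fun T x y =>
    if x < W then
      (if y < W then desc 0 (s + 1) T.1 x y
      else desc 0 (s + 1) { T.1 with d := T.1.u } x (y - W))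
    else
      (if y < W then desc 0 (s + 1) { T.1 with l := T.1.r } (x - W) y
      else desc 0 (s + 1) T.1 (x - W) (y - W))
  let val : (Fin W × Fin W) × LTile (s + 1) → ι → LTile 0 := fun z i =>
    pick (tgt z.2 ((z.1.1 : ℕ) + (pos i).1) ((z.1.2 : ℕ) + (pos i).2))
  refine ⟨T₀.merge val, hT₀g.merge _, fun i => ?_⟩
  suffices h : Refines T₀ (fun z => val z i) (site hP (((pos i).1 : ℤ), ((pos i).2 : ℤ))) from
    MonoidHom.ext fun y => DFunLike.congr_fun h y
  refine refines_of_orth A.closed.colours _ fun z t ht => ?_
  obtain ⟨c, T⟩ := z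
  rw [hT₀]
  set v : Lat := (((pos i).1 : ℤ), ((pos i).2 : ℤ)) with hv
  obtain ⟨f, hf, hfg⟩ := A.exists_shift v ((hRg c).atom T)
  have hf' := (hR c T).add hf
  have ht' : t.1 ≠ tgt T ((c.1 : ℕ) + (pos i).1) ((c.2 : ℕ) + (pos i).2) := by
    intro e
    apply ht
    simp only [val]
    exact eq_pick e
  have hc1 := c.1.isLt
  have hc2 := c.2.isLt
  have hp1 := (hpos i).1
  have hp2 := (hpos i).2
  -- orthogonality at the origin
  have key : Comm f (P.atom t) := by
    by_cases h1 : (c.1 : ℕ) + (pos i).1 < W
    · by_cases h2 : (c.2 : ℕ) + (pos i).2 < W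
      · refine orth_block L hP (c := (⟨_, h1⟩, ⟨_, h2⟩)) (p := fun T' => T' = T)
          (q := fun T' => T' = T) ?_ (fun T' e => ?_) rfl hf'
        · convert Amp.Shift.of_good_zero (L.tiles_good fun T' => T' = T) using 1
          ext <;> simp only [v, Prod.fst_add, Prod.snd_add, Prod.fst_sub, Prod.snd_sub,
            Prod.fst_zero, Prod.snd_zero] <;> omega
        · subst e
          simp only [tgt, h1, h2, if_true] at ht'
          exact fun e => ht' e.symm
      · refine orth_block L hP (c := (⟨_, h1⟩, ⟨(c.2 : ℕ) + (pos i).2 - W, by omega⟩))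
          (p := fun T' => T'.1.u = T.1.u) (q := fun T' => T'.1.d = T.1.u) ?_ (fun T' e => ?_) rfl hf'
        · convert L.match_v T.1.u using 1
          ext <;> simp only [v, Prod.fst_add, Prod.snd_add, Prod.fst_sub, Prod.snd_sub] <;> omega
        · simp only [tgt, h1, h2, if_true, if_false] at ht'
          have hlt : (c.2 : ℕ) + (pos i).2 - W < width s := by omega
          rw [desc_congr_d (T' := { T.1 with d := T.1.u }) e h1 hlt]
          exact fun e => ht' e.symm
    · by_cases h2 : (c.2 : ℕ) + (pos i).2 < W
      · refine orth_block L hP (c := (⟨(c.1 : ℕ) + (pos i).1 - W, by omega⟩, ⟨_, h2⟩))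
          (p := fun T' => T'.1.r = T.1.r) (q := fun T' => T'.1.l = T.1.r) ?_ (fun T' e => ?_) rfl hf'
        · convert L.match_h T.1.r using 1
          ext <;> simp only [v, Prod.fst_add, Prod.snd_add, Prod.fst_sub, Prod.snd_sub] <;> omega
        · simp only [tgt, h1, h2, if_true, if_false] at ht'
          have hlt : (c.1 : ℕ) + (pos i).1 - W < width s := by omega
          rw [desc_congr_l (T' := { T.1 with l := T.1.r }) e hlt h2]
          exact fun e => ht' e.symm
      · refine orth_block L hP (c := (⟨(c.1 : ℕ) + (pos i).1 - W, by omega⟩,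
            ⟨(c.2 : ℕ) + (pos i).2 - W, by omega⟩))
          (p := fun _ => True) (q := fun _ => True) ?_ (fun T' _ => ?_) trivial hf'
        · rw [block_true]
          convert (units_shift_h L).add (units_shift_v L) using 1
          ext <;> simp only [v, Prod.fst_add, Prod.snd_add, Prod.fst_sub, Prod.snd_sub] <;> omega
        · simp only [tgt, h1, h2, if_false] at ht'
          have hlt1 : (c.1 : ℕ) + (pos i).1 - W < width s := by omega
          have hlt2 : (c.2 : ℕ) + (pos i).2 - W < width s := by omega
          rw [desc_congr_zero T'.1 T.1 hlt1 hlt2]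
          exact fun e => ht' e.symm
  exact Amp.Shift.comm hf.symm (site_shift hP v t) key

/-- Every finite family of sites has a partition by its patterns. -/
theorem exists_win (hP : GoodPart A P) (hL : ∀ s, Nonempty (Level A P s)) {ι : Type} [Finite ι]
    (pos : ι → Lat) : ∃ J, GoodPart A J ∧ IsWin hP pos J := by
  have := Fintype.ofFinite ι
  let R : ℕ := Finset.univ.sup fun i => max (pos i).1.natAbs (pos i).2.natAbs
  have hR : ∀ i, (pos i).1.natAbs ≤ R ∧ (pos i).2.natAbs ≤ R := fun i =>
    max_le_iff.1 (Finset.le_sup (f := fun i => max (pos i).1.natAbs (pos i).2.natAbs)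
      (Finset.mem_univ i))
  obtain ⟨L⟩ := hL (2 * R + 1)
  have hw : 2 * R ≤ width (2 * R) := Nat.lt_two_pow_self.le.trans (two_pow_le_width _)
  obtain ⟨J, hJ, hwin⟩ := exists_win_pos hP L
    (fun i => (((pos i).1 + R).toNat, ((pos i).2 + R).toNat))
    (fun i => by have := hR i; omega)
  obtain ⟨J', hJJ', hJ'⟩ := exists_pshift hJ (Amp.Shift.unit A ((R : ℤ), (R : ℤ)))
  refine ⟨J', hJ', fun i => hJJ'.refines (site_between hP ?_) (hwin i)⟩
  have := hR i
  ext <;> simp <;> omega

end Vale.Agent.P196.Full.Lift
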